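import Vale.Agent.P092.H793.Re.Blocks
import Mathlib.Algebra.Lie.CartanCriterion
import Mathlib.Topology.Algebra.ContinuousMonoidHom

/-!
P092, project RE-ADJ (helper259): the identity components of the automorphism groups of all simple real
Lie algebras have self-adjoint realisations.  Definitions and blocks (Mathlib only).
-/

set_option linter.all false

open Matrix Filter Topology

namespace Vale.Agent.P092.H259.Ad

open Vale.Agent.P092.H793.Re (Mat SLn RS Lie)

/-- structure constants -/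
abbrev Ten (n : ℕ) := Fin n → Fin n → Fin n → ℝ

variable {n : ℕ}

/-- the bilinear map with structure constants `c` -/
def br (c : Ten n) (x y : Fin n → ℝ) : Fin n → ℝ := fun l => ∑ i, ∑ j, c i j l * x i * y j

/-- `c` is a Lie bracket -/
structure IsLie (c : Ten n) : Prop where
  anti : ∀ x y, br c x y = -br c y x
  jac : ∀ x y z, br c x (br c y z) = br c (br c x y) z + br c y (br c x z)

/-- the matrix of `ad x` -/
def adm (c : Ten n) (x : Fin n → ℝ) : Mat n := of fun l j => ∑ i, c i j l * x i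

/-- the Killing form -/
def kil (c : Ten n) : Mat n :=
  of fun i j => (adm c (Pi.single i 1) * adm c (Pi.single j 1)).trace

/-- the Killing form is nondegenerate -/
def Nd (c : Ten n) : Prop := (kil c).det ≠ 0

/-- `g` maps the bracket `c` to the bracket `c'` -/
def Iso (g : Mat n) (c c' : Ten n) : Prop :=
  ∀ x y, g *ᵥ br c x y = br c' (g *ᵥ x) (g *ᵥ y)

/-- the square of the norm -/
def hs (c : Ten n) : ℝ := ∑ i, ∑ j, ∑ l, c i j l ^ 2

/-- brackets of minimal norm -/
def Min (c : Ten n) : Prop :=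
  ∀ (g : Mat n) (c' : Ten n), |g.det| = 1 → Iso g c c' → hs c ≤ hs c'

/-- [AD-1] the second cohomology of `c` with values in the adjoint module vanishes -/
def H2B : Prop :=
  ∀ {n : ℕ} (c : Ten n), IsLie c → Nd c → ∀ w : Ten n, (∀ x y, br w x y = -br w y x) →
    (∀ x y z, br c x (br w y z) + br w x (br c y z) =
      br c (br w x y) z + br w (br c x y) z + br c y (br w x z) + br w y (br c x z)) →
    ∃ A : Mat n, ∀ x y, br w x y = br c (A *ᵥ x) y + br c x (A *ᵥ y) - A *ᵥ br c x y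

/-- [AD-2] rigidity -/
def RigB : Prop :=
  ∀ {n : ℕ} (c : Ten n), IsLie c → Nd c → ∀ᶠ c' in 𝓝 c, IsLie c' →
    ∃ g : Mat n, g.det ≠ 0 ∧ Iso g c c'

/-- [AD-3] minimal brackets exist -/
def MinB : Prop :=
  ∀ {n : ℕ} (c : Ten n), IsLie c → Nd c →
    ∃ (g : Mat n) (c₀ : Ten n), |g.det| = 1 ∧ Iso g c c₀ ∧ IsLie c₀ ∧ Nd c₀ ∧ Min c₀

/-- [AD-4] the symmetric automorphisms of a minimal bracket (Kempf–Ness) -/
def SymB : Prop :=
  ∀ {n : ℕ} (c c' : Ten n) (o : Mat n) (x : Fin n → ℝ), Min c → o * oᵀ = 1 → ∑ i, x i = 0 →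
    Iso (o * diagonal (fun i => Real.exp (x i)) * oᵀ) c c' → hs c' = hs c →
    ∀ s : ℝ, Iso (o * diagonal (fun i => Real.exp (s * x i)) * oᵀ) c c

/-- [AD-6] a closed connected group with a simple Lie algebra is simple modulo its centre -/
def SimB : Prop :=
  ∀ {n : ℕ} {G : Type} [Group G] [TopologicalSpace G] (ρ : G →* SLn n), IsClosedEmbedding ρ →
    PreconnectedSpace G →
    (∀ S : Submodule ℝ (Mat n), (∀ X ∈ S, Lie ρ X) →
      (∀ g, ∀ X ∈ S, (ρ g).1 * X * (ρ g⁻¹).1 ∈ S) → S = ⊥ ∨ ∀ X, Lie ρ X → X ∈ S) →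
    ∀ N : Subgroup G, N.Normal → N ≤ Subgroup.center G ∨ N = ⊤

/-- the automorphism group of the bracket `c` (in `SL_n`) -/
def aut (c : Ten n) : Subgroup (SLn n) where
  carrier := {g | Iso g.1 c c}
  one_mem' := fun x y => by simp
  mul_mem' := fun {g h} hg hh x y => by
    have h1 : ∀ z, (g * h).1 *ᵥ z = g.1 *ᵥ (h.1 *ᵥ z) := fun z => by
      rw [mulVec_mulVec]; rfl
    rw [h1, h1, h1, hh, hg]
  inv_mem' := fun {g} hg x y => by
    have h1 : ∀ z, g.1 *ᵥ ((g⁻¹).1 *ᵥ z) = z := fun z => by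
      rw [mulVec_mulVec]
      have : g.1 * (g⁻¹).1 = 1 := congrArg Subtype.val (mul_inv_cancel g)
      rw [this, one_mulVec]
    have h2 : ∀ z, (g⁻¹).1 *ᵥ (g.1 *ᵥ z) = z := fun z => by
      rw [mulVec_mulVec]
      have : (g⁻¹).1 * g.1 = 1 := congrArg Subtype.val (inv_mul_cancel g)
      rw [this, one_mulVec]
    calc (g⁻¹).1 *ᵥ br c x y = (g⁻¹).1 *ᵥ br c (g.1 *ᵥ ((g⁻¹).1 *ᵥ x)) (g.1 *ᵥ ((g⁻¹).1 *ᵥ y)) := by
          rw [h1, h1]
      _ = br c ((g⁻¹).1 *ᵥ x) ((g⁻¹).1 *ᵥ y) := by rw [← hg, h2]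

/-- its identity component -/
abbrev Aut0 (c : Ten n) := Subgroup.connectedComponentOfOne (aut c)

/-- the embedding -/
def rho (c : Ten n) : Aut0 c →* SLn n := (aut c).subtype.comp (Aut0 c).subtype

/-- **The class**: `G` is isomorphic, as a topological group, to the identity component of the
automorphism group of a simple real Lie algebra (of finite dimension), and not compact.  These are, up
to isomorphism, the noncompact connected simple real Lie groups with trivial centre. -/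
def IsAdj (G : Type) [Group G] [TopologicalSpace G] : Prop :=
  ¬ CompactSpace G ∧ ∃ (L : Type) (_ : LieRing L) (_ : LieAlgebra ℝ L)
    (_ : LieAlgebra.IsSimple ℝ L) (n : ℕ) (b : Module.Basis (Fin n) ℝ L)
    (S : Subgroup (SpecialLinearGroup (Fin n) ℝ)),
      (∀ g, g ∈ S ↔ ∃ φ : L ≃ₗ⁅ℝ⁆ L, LinearMap.toMatrix b b (φ : L →ₗ[ℝ] L) = g.1) ∧
      Nonempty (G ≃ₜ* Subgroup.connectedComponentOfOne S)

/-- [AD-7] the goal -/
def AdjB : Prop :=
  ∀ {G : Type} [Group G] [TopologicalSpace G], IsAdj G → ∃ (n : ℕ) (ρ : G →* SLn n), RS ρ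

end Vale.Agent.P092.H259.Ad
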