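import Vale.Agent.P092.H259.Ad.LieL
import Vale.Agent.P092.H624.Ad.Sim
import Vale.Agent.P092.H899.Ad23
import Mathlib.Topology.Algebra.ContinuousMonoidHom

/-!
P092, project RE-ADJ (helper259), [AD-7]: the identity component of the automorphism group of a simple
real Lie algebra, if it is not compact, has a self-adjoint realisation.
-/

set_option linter.all false

open Matrix Filter Topology

namespace Vale.Agent.P092.H259.Ad

open Vale.Agent.P092.H793.Re (Mat SLn RS Lie)

section congr

variable {A B : Type} [Group A] [TopologicalSpace A] [IsTopologicalGroup A] [Group B]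
  [TopologicalSpace B] [IsTopologicalGroup B]

theorem mem_cc (e : A ≃ₜ* B) {x : A} (hx : x ∈ Subgroup.connectedComponentOfOne A) :
    e x ∈ Subgroup.connectedComponentOfOne B := by
  have hc : Continuous e := e.continuous_toFun
  have h := hc.mapsTo_connectedComponent 1 (hx : x ∈ connectedComponent (1 : A))
  rw [map_one] at h
  exact h

/-- the identity components of isomorphic groups -/
def ccongr (e : A ≃ₜ* B) :
    Subgroup.connectedComponentOfOne A ≃ₜ* Subgroup.connectedComponentOfOne B where
  toFun x := ⟨e x.1, mem_cc e x.2⟩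
  invFun x := ⟨e.symm x.1, mem_cc e.symm x.2⟩
  left_inv x := Subtype.ext (e.symm_apply_apply _)
  right_inv x := Subtype.ext (e.apply_symm_apply _)
  map_mul' x y := Subtype.ext (map_mul e _ _)
  continuous_toFun := (e.continuous_toFun.comp continuous_subtype_val).subtype_mk _
  continuous_invFun := (e.symm.continuous_toFun.comp continuous_subtype_val).subtype_mk _

end congr

/-- self-adjoint realisations of isomorphic groups -/
theorem rs_congr {n : ℕ} {G G' : Type} [Group G] [TopologicalSpace G] [Group G']
    [TopologicalSpace G'] {ρ : G →* SLn n} (h : RS ρ) (e : G' ≃ₜ* G) :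
    RS (ρ.comp e.toMulEquiv.toMonoidHom) where
  emb := h.emb.comp e.toHomeomorph.isClosedEmbedding
  conn := by
    haveI := h.conn
    exact e.toHomeomorph.symm.surjective.denseRange.preconnectedSpace e.toHomeomorph.symm.continuous
  adj g := by
    obtain ⟨g', hg'⟩ := h.adj (e g)
    exact ⟨e.symm g', by
      show (ρ (e (e.symm g'))).1 = _
      rw [e.apply_symm_apply, hg']; rfl⟩
  sqrt x hx := by
    rintro ⟨g, hg⟩
    obtain ⟨g', hg'⟩ := h.sqrt x hx ⟨e g, hg⟩
    exact ⟨e.symm g', by
      show ρ (e (e.symm g')) = _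
      rw [e.apply_symm_apply, hg']⟩
  nc hc := by
    haveI := hc
    exact h.nc e.toHomeomorph.compactSpace
  nab := by
    obtain ⟨g, g', hg⟩ := h.nab
    refine ⟨e.symm g, e.symm g', fun h1 => hg ?_⟩
    rw [← map_mul, ← map_mul] at h1
    exact e.symm.injective h1
  simple N hN := by
    have h1 : (N.map e.toMulEquiv.toMonoidHom).Normal := hN.map _ e.surjective
    rcases h.simple _ h1 with h2 | h2
    · left
      intro x hx
      have h3 : e x ∈ Subgroup.center G := h2 ⟨x, hx, rfl⟩
      rw [Subgroup.mem_center_iff] at h3 ⊢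
      intro y
      apply e.injective
      rw [map_mul, map_mul, h3]
    · right
      rw [eq_top_iff]
      intro x _
      have h3 : e x ∈ N.map e.toMulEquiv.toMonoidHom := by rw [h2]; trivial
      obtain ⟨y, hy, hxy⟩ := h3
      have h4 : y = x := e.injective hxy
      exact h4 ▸ hy

variable {n : ℕ} {c c' : Ten n}

theorem cont_mk {X : Type} [TopologicalSpace X] {f : X → aut c}
    (h : Continuous fun x => (f x).1.1) : Continuous f := by
  refine continuous_induced_rng.2 ?_
  exact continuous_induced_rng.2 h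

/-- conjugation -/
def cj (g g' : Mat n) (hd : g.det * g'.det = 1) (x : SLn n) : SLn n :=
  ⟨g * x.1 * g', by rw [det_mul, det_mul, x.2, mul_one, hd]⟩

/-- the groups of isomorphic brackets -/
def autCongr {g g' : Mat n} (hi : Iso g c c') (h : g * g' = 1) (h' : g' * g = 1) :
    aut c ≃ₜ* aut c' where
  toFun x := ⟨cj g g' (by rw [← det_mul, h, det_one]) x.1, by
    show Iso (g * x.1.1 * g') c' c'
    have h1 := ((hi.inv h).comp (x.2 : Iso x.1.1 c c)).comp hi
    rwa [← mul_assoc] at h1⟩
  invFun x := ⟨cj g' g (by rw [← det_mul, h', det_one]) x.1, by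
    show Iso (g' * x.1.1 * g) c c
    have h1 := (hi.comp (x.2 : Iso x.1.1 c' c')).comp (hi.inv h)
    rwa [← mul_assoc] at h1⟩
  left_inv x := by
    apply Subtype.ext
    apply Subtype.ext
    show g' * (g * x.1.1 * g') * g = x.1.1
    calc g' * (g * x.1.1 * g') * g = (g' * g) * x.1.1 * (g' * g) := by simp only [mul_assoc]
      _ = x.1.1 := by rw [h', one_mul, mul_one]
  right_inv x := by
    apply Subtype.ext
    apply Subtype.ext
    show g * (g' * x.1.1 * g) * g' = x.1.1
    calc g * (g' * x.1.1 * g) * g' = (g * g') * x.1.1 * (g * g') := by simp only [mul_assoc]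
      _ = x.1.1 := by rw [h, one_mul, mul_one]
  map_mul' x y := by
    apply Subtype.ext
    apply Subtype.ext
    show g * (x.1.1 * y.1.1) * g' = (g * x.1.1 * g') * (g * y.1.1 * g')
    calc g * (x.1.1 * y.1.1) * g' = g * x.1.1 * 1 * y.1.1 * g' := by simp only [mul_assoc, one_mul]
      _ = g * x.1.1 * (g' * g) * y.1.1 * g' := by rw [h']
      _ = _ := by simp only [mul_assoc]
  continuous_toFun := by
    refine cont_mk ?_
    have h1 : Continuous fun x : aut c => x.1.1 := continuous_subtype_val.comp continuous_subtype_val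
    exact (continuous_const.matrix_mul h1).matrix_mul continuous_const
  continuous_invFun := by
    refine cont_mk ?_
    have h1 : Continuous fun x : aut c' => x.1.1 := continuous_subtype_val.comp continuous_subtype_val
    exact (continuous_const.matrix_mul h1).matrix_mul continuous_const

/-- **[AD-7]**: the group of every simple bracket has a self-adjoint realisation. -/
theorem rs_simp {L : Type} [LieRing L] [LieAlgebra ℝ L] [FiniteDimensional ℝ L]
    [LieAlgebra.IsSimple ℝ L] {φ : L ≃ₗ[ℝ] (Fin n → ℝ)} (hφ : Mod φ c)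
    (hnc : ¬ CompactSpace (Aut0 c)) : ∃ ρ : Aut0 c →* SLn n, RS ρ := by
  obtain ⟨g, c₀, hg, hi, -, -, hm⟩ := H899.Ad.mini c hφ.simp.lie hφ.simp.nd
  have hu : IsUnit g.det := by
    rw [isUnit_iff_ne_zero]
    intro h0
    rw [h0, abs_zero] at hg
    exact zero_ne_one hg
  have h1 : g * g⁻¹ = 1 := Matrix.mul_nonsing_inv g hu
  have h2 : g⁻¹ * g = 1 := Matrix.nonsing_inv_mul g hu
  obtain ⟨φ', hφ', -⟩ := hφ.iso hi h1 h2
  have e : Aut0 c ≃ₜ* Aut0 c₀ := ccongr (autCongr hi h1 h2)
  have hnc' : ¬ CompactSpace (Aut0 c₀) := fun hc => hnc (by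
    haveI := hc
    exact e.symm.toHomeomorph.compactSpace)
  exact ⟨_, rs_congr (rs_min H624.Ad.simB hφ'.simp hm hnc') e⟩

/-- **Every noncompact connected simple real Lie group with trivial centre has a self-adjoint
realisation.** -/
theorem adjB : AdjB := by
  intro G _ _ hG
  obtain ⟨hnc, L, _, _, _, n, b, S, hS, ⟨e⟩⟩ := hG
  haveI : FiniteDimensional ℝ L := Module.Finite.of_basis b
  set c : Ten n := fun i j l => b.equivFun ⁅b i, b j⁆ l with hc
  have hm : Mod b.equivFun c := mod_basis b
  obtain rfl : S = aut c := by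
    ext g
    rw [hS, mem_aut_iff b hm]
  have hnc' : ¬ CompactSpace (Aut0 c) := fun hc => hnc (by
    haveI := hc
    exact e.symm.toHomeomorph.compactSpace)
  obtain ⟨ρ, hρ⟩ := rs_simp hm hnc'
  exact ⟨n, _, rs_congr hρ e⟩

end Vale.Agent.P092.H259.Ad
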