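import Vale.Agent.P092.H259.Ad.Defs

/-!
P092, project RE-ADJ (helper259): basic facts on structure constants; [AD-4].
-/

set_option linter.all false

open Matrix Filter Topology

namespace Vale.Agent.P092.H259.Ad

open Vale.Agent.P092.H793.Re (Mat SLn RS Lie)

variable {n : ℕ} (c : Ten n)

theorem br_add_left (x x' y : Fin n → ℝ) : br c (x + x') y = br c x y + br c x' y := by
  funext l
  simp only [br, Pi.add_apply, mul_add, add_mul, Finset.sum_add_distrib]

theorem br_add_right (x y y' : Fin n → ℝ) : br c x (y + y') = br c x y + br c x y' := by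
  funext l
  simp only [br, Pi.add_apply, mul_add, Finset.sum_add_distrib]

theorem br_smul_left (a : ℝ) (x y : Fin n → ℝ) : br c (a • x) y = a • br c x y := by
  funext l
  simp only [br, Pi.smul_apply, smul_eq_mul, Finset.mul_sum]
  exact Finset.sum_congr rfl fun i _ => Finset.sum_congr rfl fun j _ => by ring

theorem br_smul_right (a : ℝ) (x y : Fin n → ℝ) : br c x (a • y) = a • br c x y := by
  funext l
  simp only [br, Pi.smul_apply, smul_eq_mul, Finset.mul_sum]
  exact Finset.sum_congr rfl fun i _ => Finset.sum_congr rfl fun j _ => by ring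

/-- the bilinear map -/
def brL : (Fin n → ℝ) →ₗ[ℝ] (Fin n → ℝ) →ₗ[ℝ] (Fin n → ℝ) :=
  LinearMap.mk₂ ℝ (br c) (br_add_left c) (br_smul_left c) (br_add_right c) (br_smul_right c)

@[simp] theorem brL_apply (x y : Fin n → ℝ) : brL c x y = br c x y := rfl

theorem br_zero_left (y : Fin n → ℝ) : br c 0 y = 0 := by
  rw [← brL_apply, map_zero, LinearMap.zero_apply]

theorem br_zero_right (x : Fin n → ℝ) : br c x 0 = 0 := by
  rw [← brL_apply, map_zero]

theorem br_neg_left (x y : Fin n → ℝ) : br c (-x) y = -br c x y := by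
  rw [← brL_apply, map_neg, LinearMap.neg_apply, brL_apply]

theorem br_neg_right (x y : Fin n → ℝ) : br c x (-y) = -br c x y := by
  rw [← brL_apply, map_neg, brL_apply]

theorem br_sub_left (x x' y : Fin n → ℝ) : br c (x - x') y = br c x y - br c x' y := by
  rw [← brL_apply, map_sub, LinearMap.sub_apply, brL_apply, brL_apply]

theorem br_sub_right (x y y' : Fin n → ℝ) : br c x (y - y') = br c x y - br c x y' := by
  rw [← brL_apply, map_sub, brL_apply, brL_apply]

@[simp] theorem br_single (i j l : Fin n) :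
    br c (Pi.single i 1) (Pi.single j 1) l = c i j l := by
  simp [br, Pi.single_apply]

/-- the structure constants are determined by the bilinear map -/
theorem ten_ext {c c' : Ten n} (h : ∀ x y, br c x y = br c' x y) : c = c' := by
  funext i j l
  rw [← br_single c, ← br_single c', h]

/-- the structure constants of a bilinear map -/
def ten (β : (Fin n → ℝ) →ₗ[ℝ] (Fin n → ℝ) →ₗ[ℝ] (Fin n → ℝ)) : Ten n :=
  fun i j l => β (Pi.single i 1) (Pi.single j 1) l

theorem brL_ten (β : (Fin n → ℝ) →ₗ[ℝ] (Fin n → ℝ) →ₗ[ℝ] (Fin n → ℝ)) : brL (ten β) = β := by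
  refine LinearMap.pi_ext' fun i => LinearMap.ext_ring ?_
  refine LinearMap.pi_ext' fun j => LinearMap.ext_ring ?_
  funext l
  exact br_single _ i j l

theorem br_ten (β : (Fin n → ℝ) →ₗ[ℝ] (Fin n → ℝ) →ₗ[ℝ] (Fin n → ℝ)) (x y : Fin n → ℝ) :
    br (ten β) x y = β x y := by
  rw [← brL_apply, brL_ten]

/-- the transport of a bracket -/
def act (g g' : Mat n) (c : Ten n) : Ten n :=
  ten (((brL c).compl₁₂ (mulVecLin g') (mulVecLin g')).compr₂ (mulVecLin g))

theorem br_act (g g' : Mat n) (x y : Fin n → ℝ) :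
    br (act g g' c) x y = g *ᵥ br c (g' *ᵥ x) (g' *ᵥ y) := by
  rw [act, br_ten]
  rfl

theorem act_apply (g g' : Mat n) (i j l : Fin n) :
    act g g' c i j l = ∑ k, ∑ a, ∑ b, g l k * g' a i * g' b j * c a b k := by
  rw [← br_single (act g g' c), br_act, mulVec, dotProduct]
  refine Finset.sum_congr rfl fun k _ => ?_
  rw [br, Finset.mul_sum]
  refine Finset.sum_congr rfl fun a _ => ?_
  rw [Finset.mul_sum]
  refine Finset.sum_congr rfl fun b _ => ?_
  simp only [mulVec_single_one, col_apply]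
  ring

theorem iso_act {g g' : Mat n} (h : g' * g = 1) : Iso g c (act g g' c) := by
  intro x y
  rw [br_act, mulVec_mulVec, mulVec_mulVec, h, one_mulVec, one_mulVec]

variable {c}

theorem Iso.comp {c' c'' : Ten n} {g h : Mat n} (hg : Iso g c c') (hh : Iso h c' c'') :
    Iso (h * g) c c'' := by
  intro x y
  rw [← mulVec_mulVec, hg, hh, mulVec_mulVec, mulVec_mulVec]

theorem Iso.inv {c' : Ten n} {g g' : Mat n} (hg : Iso g c c') (h : g * g' = 1) : Iso g' c' c := by
  have h' : g' * g = 1 := mul_eq_one_comm.1 h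
  intro x y
  have h1 := hg (g' *ᵥ x) (g' *ᵥ y)
  rw [mulVec_mulVec, mulVec_mulVec, h, one_mulVec, one_mulVec] at h1
  rw [← h1, mulVec_mulVec, h', one_mulVec]

theorem Iso.one : Iso (1 : Mat n) c c := fun x y => by simp

theorem Iso.unique {c' c'' : Ten n} {g g' : Mat n} (h : g * g' = 1) (h1 : Iso g c c')
    (h2 : Iso g c c'') : c' = c'' := by
  refine ten_ext fun x y => ?_
  have e1 := h1 (g' *ᵥ x) (g' *ᵥ y)
  have e2 := h2 (g' *ᵥ x) (g' *ᵥ y)
  rw [mulVec_mulVec, mulVec_mulVec, h, one_mulVec, one_mulVec] at e1 e2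
  rw [← e1, ← e2]

/-- orthogonal matrices preserve the sum of the squares -/
theorem sum_sq_orth {o : Mat n} (ho : o * oᵀ = 1) (v : Fin n → ℝ) :
    ∑ l, (∑ k, o l k * v k) ^ 2 = ∑ k, v k ^ 2 := by
  have h' : oᵀ * o = 1 := mul_eq_one_comm.1 ho
  have h1 : (o *ᵥ v) ⬝ᵥ (o *ᵥ v) = v ⬝ᵥ v := by
    rw [dotProduct_mulVec, vecMul_mulVec, h', vecMul_one]
  have e1 : ∑ l, (∑ k, o l k * v k) ^ 2 = (o *ᵥ v) ⬝ᵥ (o *ᵥ v) := by
    simp only [dotProduct, mulVec, sq]
  have e2 : ∑ k, v k ^ 2 = v ⬝ᵥ v := by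
    simp only [dotProduct, sq]
  rw [e1, e2, h1]

theorem hs_act_orth (c : Ten n) {o : Mat n} (ho : o * oᵀ = 1) : hs (act o oᵀ c) = hs c := by
  have e : ∀ i j l, act o oᵀ c i j l = ∑ k, o l k * ∑ a, o i a * ∑ b, o j b * c a b k := by
    intro i j l
    rw [act_apply]
    refine Finset.sum_congr rfl fun k _ => ?_
    rw [Finset.mul_sum]
    refine Finset.sum_congr rfl fun a _ => ?_
    rw [Finset.mul_sum, Finset.mul_sum]
    refine Finset.sum_congr rfl fun b _ => ?_
    simp only [transpose_apply]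
    ring
  unfold hs
  simp only [e]
  calc ∑ i, ∑ j, ∑ l, (∑ k, o l k * ∑ a, o i a * ∑ b, o j b * c a b k) ^ 2
      = ∑ i, ∑ j, ∑ k, (∑ a, o i a * ∑ b, o j b * c a b k) ^ 2 := by
        refine Finset.sum_congr rfl fun i _ => Finset.sum_congr rfl fun j _ => ?_
        exact sum_sq_orth ho fun k => ∑ a, o i a * ∑ b, o j b * c a b k
    _ = ∑ j, ∑ k, ∑ i, (∑ a, o i a * ∑ b, o j b * c a b k) ^ 2 := by
        rw [Finset.sum_comm]
        refine Finset.sum_congr rfl fun j _ => ?_
        rw [Finset.sum_comm]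
    _ = ∑ j, ∑ k, ∑ a, (∑ b, o j b * c a b k) ^ 2 := by
        refine Finset.sum_congr rfl fun j _ => Finset.sum_congr rfl fun k _ => ?_
        exact sum_sq_orth ho fun a => ∑ b, o j b * c a b k
    _ = ∑ k, ∑ a, ∑ j, (∑ b, o j b * c a b k) ^ 2 := by
        rw [Finset.sum_comm]
        refine Finset.sum_congr rfl fun k _ => ?_
        rw [Finset.sum_comm]
    _ = ∑ k, ∑ a, ∑ b, c a b k ^ 2 := by
        refine Finset.sum_congr rfl fun k _ => Finset.sum_congr rfl fun a _ => ?_
        exact sum_sq_orth ho fun b => c a b k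
    _ = ∑ a, ∑ b, ∑ k, c a b k ^ 2 := by
        rw [Finset.sum_comm]
        refine Finset.sum_congr rfl fun a _ => ?_
        rw [Finset.sum_comm]

theorem hs_iso_orth {c c' : Ten n} {o : Mat n} (ho : o * oᵀ = 1) (h : Iso o c c') :
    hs c' = hs c := by
  have h' : oᵀ * o = 1 := mul_eq_one_comm.1 ho
  rw [Iso.unique ho h (iso_act c h'), hs_act_orth c ho]

/-- the diagonal action -/
theorem act_diag (c : Ten n) (x : Fin n → ℝ) (i j l : Fin n) :
    act (diagonal fun a => Real.exp (x a)) (diagonal fun a => Real.exp (-x a)) c i j l =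
      Real.exp (x l - x i - x j) * c i j l := by
  rw [← br_single (act _ _ c), br_act]
  have e : ∀ i, (diagonal fun a => Real.exp (-x a)) *ᵥ (Pi.single i (1 : ℝ) : Fin n → ℝ) =
      Real.exp (-x i) • (Pi.single i (1 : ℝ) : Fin n → ℝ) := by
    intro i
    funext a
    rw [mulVec_diagonal, Pi.smul_apply, smul_eq_mul]
    by_cases h : a = i
    · subst h; rfl
    · rw [Pi.single_eq_of_ne h, mul_zero, mul_zero]
  rw [e, e, br_smul_left, br_smul_right, mulVec_diagonal, Pi.smul_apply, Pi.smul_apply, br_single,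
    smul_eq_mul, smul_eq_mul, sub_eq_add_neg, sub_eq_add_neg, Real.exp_add, Real.exp_add]
  ring

theorem diag_mul_inv (x : Fin n → ℝ) :
    (diagonal fun a => Real.exp (x a)) * (diagonal fun a => Real.exp (-x a)) = (1 : Mat n) := by
  rw [diagonal_mul_diagonal, ← diagonal_one]
  congr 1
  funext a
  rw [← Real.exp_add, add_neg_cancel, Real.exp_zero]

theorem diag_inv_mul (x : Fin n → ℝ) :
    (diagonal fun a => Real.exp (-x a)) * (diagonal fun a => Real.exp (x a)) = (1 : Mat n) :=
  mul_eq_one_comm.1 (diag_mul_inv x)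

theorem iso_diag {c c' : Ten n} {x : Fin n → ℝ} (h : Iso (diagonal fun a => Real.exp (x a)) c c')
    (i j l : Fin n) : c' i j l = Real.exp (x l - x i - x j) * c i j l := by
  rw [Iso.unique (diag_mul_inv x) h (iso_act c (diag_inv_mul x)), act_diag]

/-- **[AD-4]** -/
theorem symB : SymB := by
  intro n c c' o x hmin ho hx hi hh s
  have ho' : oᵀ * o = 1 := mul_eq_one_comm.1 ho
  have hot : oᵀ * oᵀᵀ = 1 := by rw [transpose_transpose]; exact ho'
  -- the bracket in the eigenbasis
  set a : Ten n := act oᵀ o c with ha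
  have h1 : Iso oᵀ c a := iso_act c ho
  have h1' : Iso o a c := h1.inv ho'
  have hsa : hs a = hs c := hs_iso_orth hot h1
  -- the diagonal matrices
  have key : ∀ (t : ℝ) (d : Ten n), Iso (o * diagonal (fun i => Real.exp (t * x i)) * oᵀ) c d →
      hs d = ∑ i, ∑ j, ∑ l, (Real.exp (t * x l - t * x i - t * x j) * a i j l) ^ 2 := by
    intro t d hd
    have h2 : Iso oᵀ d (act oᵀ o d) := iso_act d ho
    have h3 : Iso (diagonal fun i => Real.exp (t * x i)) a (act oᵀ o d) := by
      have h4 := (h1'.comp hd).comp h2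
      have e : oᵀ * (o * diagonal (fun i => Real.exp (t * x i)) * oᵀ * o) =
          diagonal fun i => Real.exp (t * x i) := by
        rw [mul_assoc (o * _), ho', mul_one, ← mul_assoc, ho', one_mul]
      rwa [e] at h4
    rw [← hs_iso_orth hot h2]
    unfold hs
    refine Finset.sum_congr rfl fun i _ => Finset.sum_congr rfl fun j _ =>
      Finset.sum_congr rfl fun l _ => ?_
    rw [iso_diag (x := fun i => t * x i) h3]
  have hP : ∀ t : ℝ, (o * diagonal (fun i => Real.exp (t * x i)) * oᵀ) *
      (o * diagonal (fun i => Real.exp (-(t * x i))) * oᵀ) = 1 := by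
    intro t
    calc (o * diagonal (fun i => Real.exp (t * x i)) * oᵀ) *
        (o * diagonal (fun i => Real.exp (-(t * x i))) * oᵀ)
        = o * (diagonal (fun i => Real.exp (t * x i)) * ((oᵀ * o) *
          diagonal (fun i => Real.exp (-(t * x i))))) * oᵀ := by simp only [mul_assoc]
      _ = 1 := by rw [ho', one_mul, diag_mul_inv (fun i => t * x i), mul_one, ho]
  have hdet : ∀ t : ℝ, (o * diagonal (fun i => Real.exp (t * x i)) * oᵀ).det = 1 := by
    intro t
    have e1 : o.det * oᵀ.det = 1 := by rw [← det_mul, ho, det_one]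
    rw [det_mul, det_mul, det_diagonal, ← Real.exp_sum, ← Finset.mul_sum, hx, mul_zero,
      Real.exp_zero, mul_one, e1]
  -- f(0), f(1), f(1/2)
  have f0 := key 0 c (by
    have e : (o * diagonal (fun i => Real.exp (0 * x i)) * oᵀ) = 1 := by
      simp only [zero_mul, Real.exp_zero, diagonal_one, mul_one, ho]
    rw [e]; exact Iso.one)
  have f1 := key 1 c' (by simpa using hi)
  have g1 : Iso (o * diagonal (fun i => Real.exp ((1 / 2 : ℝ) * x i)) * oᵀ) c (act _ _ c) :=
    iso_act c (mul_eq_one_comm.1 (hP (1 / 2)))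
  have f2 := key (1 / 2) _ g1
  have f3 : hs c ≤ hs _ := hmin _ _ (by rw [hdet, abs_one]) g1
  have hsum : ∑ i, ∑ j, ∑ l, ((1 - Real.exp (x l - x i - x j)) * a i j l) ^ 2 =
      hs c + hs c' - 2 * hs (act (o * diagonal (fun i => Real.exp ((1 / 2 : ℝ) * x i)) * oᵀ)
        (o * diagonal (fun i => Real.exp (-((1 / 2 : ℝ) * x i))) * oᵀ) c) := by
    rw [f2, f1, f0]
    simp only [Finset.mul_sum, ← Finset.sum_add_distrib, ← Finset.sum_sub_distrib]
    refine Finset.sum_congr rfl fun i _ => Finset.sum_congr rfl fun j _ =>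
      Finset.sum_congr rfl fun l _ => ?_
    have e1 : Real.exp (x l - x i - x j) =
        Real.exp (1 / 2 * x l - 1 / 2 * x i - 1 / 2 * x j) ^ 2 := by
      rw [sq, ← Real.exp_add]
      congr 1
      ring
    simp only [one_mul, zero_mul, sub_zero, Real.exp_zero]
    rw [e1]
    ring
  have hle : ∑ i, ∑ j, ∑ l, ((1 - Real.exp (x l - x i - x j)) * a i j l) ^ 2 ≤ 0 := by
    rw [hsum]
    linarith
  have hz : ∀ i j l, (1 - Real.exp (x l - x i - x j)) * a i j l = 0 := by
    intro i j l
    have h5 : ((1 - Real.exp (x l - x i - x j)) * a i j l) ^ 2 ≤ 0 := by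
      refine le_trans ?_ hle
      calc ((1 - Real.exp (x l - x i - x j)) * a i j l) ^ 2
          ≤ ∑ l, ((1 - Real.exp (x l - x i - x j)) * a i j l) ^ 2 :=
            Finset.single_le_sum (f := fun l => ((1 - Real.exp (x l - x i - x j)) * a i j l) ^ 2)
              (fun _ _ => sq_nonneg _) (Finset.mem_univ l)
        _ ≤ ∑ j, ∑ l, ((1 - Real.exp (x l - x i - x j)) * a i j l) ^ 2 :=
            Finset.single_le_sum (f := fun j => ∑ l, ((1 - Real.exp (x l - x i - x j)) *
              a i j l) ^ 2) (fun _ _ => Finset.sum_nonneg fun _ _ => sq_nonneg _)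
              (Finset.mem_univ j)
        _ ≤ _ := Finset.single_le_sum (f := fun i => ∑ j, ∑ l,
              ((1 - Real.exp (x l - x i - x j)) * a i j l) ^ 2)
              (fun _ _ => Finset.sum_nonneg fun _ _ => Finset.sum_nonneg fun _ _ => sq_nonneg _)
              (Finset.mem_univ i)
    exact pow_eq_zero_iff two_ne_zero |>.1 (le_antisymm h5 (sq_nonneg _))
  -- the conclusion
  have h6 : Iso (diagonal fun i => Real.exp (s * x i)) a a := by
    have h7 := iso_act a (diag_inv_mul fun i => s * x i)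
    have h8 : act (diagonal fun a => Real.exp (s * x a)) (diagonal fun a => Real.exp (-(s * x a)))
        a = a := by
      funext i j l
      rw [act_diag a fun i => s * x i]
      rcases mul_eq_zero.1 (hz i j l) with h | h
      · have h9 : x l - x i - x j = 0 := Real.exp_eq_one_iff _ |>.1 (by linarith)
        have h10 : s * x l - s * x i - s * x j = 0 := by linear_combination s * h9
        rw [h10, Real.exp_zero, one_mul]
      · rw [h, mul_zero]
    rwa [h8] at h7
  have h11 := (h1.comp h6).comp h1'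
  have e : o * (diagonal (fun i => Real.exp (s * x i)) * oᵀ) =
      o * diagonal (fun i => Real.exp (s * x i)) * oᵀ := by rw [mul_assoc]
  rwa [e] at h11

end Vale.Agent.P092.H259.Ad
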