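import Vale.Agent.P092.H259.Ad.Basic
import Vale.Agent.P092.H793.Re.L2
import Mathlib.Topology.Algebra.Group.Basic
import Mathlib.Algebra.Order.Star.Real

/-!
P092, project RE-ADJ (helper259), [AD-5], part 1: the identity component of the automorphism group of
a minimal bracket is closed, connected and self-adjoint.
-/

set_option linter.all false

open Matrix Filter Topology

namespace Vale.Agent.P092.H259.Ad

open Vale.Agent.P092.H793.Re (Mat SLn RS Lie)

variable {n : ℕ}

section pw

/-- the powers of a positive definite matrix -/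
noncomputable def pw (o : Mat n) (x : Fin n → ℝ) (s : ℝ) : Mat n :=
  o * diagonal (fun i => Real.exp (s * x i)) * oᵀ

variable {o : Mat n} {x : Fin n → ℝ}

theorem pw_mul (ho : o * oᵀ = 1) (s t : ℝ) : pw o x s * pw o x t = pw o x (s + t) := by
  have ho' : oᵀ * o = 1 := mul_eq_one_comm.1 ho
  have e : (diagonal fun i => Real.exp (s * x i)) * (diagonal fun i => Real.exp (t * x i)) =
      (diagonal fun i => Real.exp ((s + t) * x i) : Mat n) := by
    rw [diagonal_mul_diagonal]
    congr 1
    funext i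
    rw [← Real.exp_add, add_mul]
  calc pw o x s * pw o x t = o * (diagonal (fun i => Real.exp (s * x i)) * ((oᵀ * o) *
        diagonal (fun i => Real.exp (t * x i)))) * oᵀ := by simp only [pw, mul_assoc]
    _ = _ := by rw [ho', one_mul, e, pw]

theorem pw_zero (ho : o * oᵀ = 1) : pw o x 0 = 1 := by
  simp only [pw, zero_mul, Real.exp_zero, diagonal_one, mul_one, ho]

theorem pw_transpose (s : ℝ) : (pw o x s)ᵀ = pw o x s := by
  rw [pw, transpose_mul, transpose_mul, transpose_transpose, diagonal_transpose, mul_assoc]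

theorem det_pw (ho : o * oᵀ = 1) (s : ℝ) : (pw o x s).det = Real.exp (s * ∑ i, x i) := by
  have e1 : o.det * oᵀ.det = 1 := by rw [← det_mul, ho, det_one]
  rw [pw, det_mul, det_mul, det_diagonal, ← Real.exp_sum, ← Finset.mul_sum]
  linear_combination Real.exp (s * ∑ i, x i) * e1

theorem cont_pw : Continuous (pw o x) := by
  have h1 : Continuous fun s : ℝ => (diagonal fun i => Real.exp (s * x i) : Mat n) := by
    refine Continuous.matrix_diagonal (continuous_pi fun i => ?_)
    fun_prop
  exact (continuous_const.matrix_mul h1).matrix_mul continuous_const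

theorem exists_pw {P : Mat n} (hP : P.PosDef) :
    ∃ (o : Mat n) (x : Fin n → ℝ), o * oᵀ = 1 ∧ P = pw o x 1 := by
  obtain ⟨U, h1, h2, h3⟩ := H793.Re.spec hP.1
  rw [conjTranspose_eq_transpose_of_trivial] at h1 h2 h3
  refine ⟨U, fun i => Real.log (hP.1.eigenvalues i), h1, ?_⟩
  have e : (fun i => Real.exp (1 * Real.log (hP.1.eigenvalues i))) = fun i =>
      (hP.1.eigenvalues i : ℝ) := by
    funext i
    rw [one_mul, Real.exp_log (hP.eigenvalues_pos i)]
  rw [pw, e]
  exact h3

end pw

variable {c : Ten n}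

theorem isClosed_aut (c : Ten n) : IsClosed (aut c : Set (SLn n)) := by
  have h : (aut c : Set (SLn n)) = ⋂ x : Fin n → ℝ, ⋂ y : Fin n → ℝ,
      {g : SLn n | g.1 *ᵥ br c x y = br c (g.1 *ᵥ x) (g.1 *ᵥ y)} := by
    ext g
    simp only [Set.mem_iInter]
    rfl
  rw [h]
  refine isClosed_iInter fun x => isClosed_iInter fun y => ?_
  have hv : Continuous fun g : SLn n => g.1 := continuous_subtype_val
  have hx : ∀ x : Fin n → ℝ, Continuous fun g : SLn n => g.1 *ᵥ x := fun x =>
    hv.matrix_mulVec continuous_const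
  refine isClosed_eq (hx _) (continuous_pi fun l => ?_)
  show Continuous fun g : SLn n => ∑ i, ∑ j, c i j l * (g.1 *ᵥ x) i * (g.1 *ᵥ y) j
  refine continuous_finsetSum _ fun i _ => continuous_finsetSum _ fun j _ => ?_
  exact (continuous_const.mul ((continuous_apply i).comp (hx x))).mul
    ((continuous_apply j).comp (hx y))

theorem isClosedEmbedding_rho (c : Ten n) : IsClosedEmbedding (rho c) := by
  have h1 : IsClosedEmbedding (Subtype.val : aut c → SLn n) :=
    (isClosed_aut c).isClosedEmbedding_subtypeVal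
  have h2 : IsClosed (Aut0 c : Set (aut c)) := isClosed_connectedComponent
  exact h1.comp h2.isClosedEmbedding_subtypeVal

theorem preconnected_aut0 (c : Ten n) : PreconnectedSpace (Aut0 c) :=
  isPreconnected_iff_preconnectedSpace.1
    (isPreconnected_connectedComponent (x := (1 : aut c)))

/-- paths of automorphisms which start at `1` are in the identity component -/
theorem mem_aut0 {γ : ℝ → Mat n} (hc : Continuous γ) (h0 : γ 0 = 1) (hd : ∀ s, (γ s).det = 1)
    (hi : ∀ s, Iso (γ s) c c) (s : ℝ) : ∃ g : Aut0 c, (rho c g).1 = γ s := by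
  let f : ℝ → aut c := fun s => ⟨⟨γ s, hd s⟩, hi s⟩
  have hf : Continuous f := by
    refine Continuous.subtype_mk ?_ _
    exact Continuous.subtype_mk hc _
  have h1 : Set.range f ⊆ connectedComponent (1 : aut c) := by
    refine (isPreconnected_range hf).subset_connectedComponent ⟨0, ?_⟩
    apply Subtype.ext
    apply Subtype.ext
    exact h0
  exact ⟨⟨f s, h1 ⟨s, rfl⟩⟩, rfl⟩

theorem pw_mem {o : Mat n} {x : Fin n → ℝ} (ho : o * oᵀ = 1) (hx : ∑ i, x i = 0)
    (h : ∀ s, Iso (pw o x s) c c) (s : ℝ) : ∃ g : Aut0 c, (rho c g).1 = pw o x s :=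
  mem_aut0 cont_pw (pw_zero ho) (fun s => by rw [det_pw ho, hx, mul_zero, Real.exp_zero]) h s

theorem iso_rho (g : Aut0 c) : Iso (rho c g).1 c c := g.1.2

theorem det_rho (g : Aut0 c) : (rho c g).1.det = 1 := (rho c g).2

/-- the polar decomposition of the automorphisms of a minimal bracket -/
theorem polar_min (hm : Min c) {g : Mat n} (hg : Iso g c c) (hd : g.det = 1) :
    ∃ (o : Mat n) (x : Fin n → ℝ), o * oᵀ = 1 ∧ ∑ i, x i = 0 ∧
      (g * pw o x (-1)) * (g * pw o x (-1))ᵀ = 1 ∧ ∀ s, Iso (pw o x s) c c := by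
  have hP : (gᵀ * g).PosDef := by
    have h1 : gᵀ * g = gᴴ * g := by rw [conjTranspose_eq_transpose_of_trivial]
    rw [h1]
    refine Matrix.PosDef.conjTranspose_mul_self g ?_
    have hu : IsUnit g := (Matrix.isUnit_iff_isUnit_det g).2 (by rw [hd]; exact isUnit_one)
    exact Matrix.mulVec_injective_iff_isUnit.2 hu
  obtain ⟨o, x', ho, hx'⟩ := exists_pw hP
  set x : Fin n → ℝ := fun i => x' i / 2 with hx
  have e2 : gᵀ * g = pw o x 2 := by
    rw [hx', pw, pw]
    congr 3
    funext i
    congr 1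
    rw [hx]
    ring
  have hsum : ∑ i, x i = 0 := by
    have h1 : (gᵀ * g).det = 1 := by rw [det_mul, det_transpose, hd, one_mul]
    rw [e2, det_pw ho, Real.exp_eq_one_iff] at h1
    linarith
  set k : Mat n := g * pw o x (-1) with hk
  have hkk : kᵀ * k = 1 := by
    rw [hk, transpose_mul, pw_transpose]
    calc pw o x (-1) * gᵀ * (g * pw o x (-1)) = pw o x (-1) * (gᵀ * g) * pw o x (-1) := by
          simp only [mul_assoc]
      _ = 1 := by
          rw [e2, pw_mul ho, pw_mul ho]
          norm_num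
          exact pw_zero ho
  have hkk' : k * kᵀ = 1 := mul_eq_one_comm.1 hkk
  have hgk : g = k * pw o x 1 := by
    rw [hk, mul_assoc, pw_mul ho]
    norm_num
    rw [pw_zero ho, mul_one]
  refine ⟨o, x, ho, hsum, hkk', ?_⟩
  have h1 : Iso kᵀ c (act kᵀ k c) := iso_act c hkk'
  have h2 : Iso (kᵀ * g) c (act kᵀ k c) := hg.comp h1
  have h3 : kᵀ * g = o * diagonal (fun i => Real.exp (x i)) * oᵀ := by
    rw [hgk, ← mul_assoc, hkk, one_mul, pw]
    simp only [one_mul]
  have h4 : hs (act kᵀ k c) = hs c :=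
    hs_iso_orth (o := kᵀ) (by rw [transpose_transpose]; exact hkk) h1
  rw [h3] at h2
  exact symB c _ o x hm ho hsum h2 h4

/-- the group of a minimal bracket is stable under transposition -/
theorem adj_min (hm : Min c) (g : Aut0 c) : ∃ g', (rho c g').1 = (rho c g).1ᵀ := by
  obtain ⟨o, x, ho, hx, hk, hi⟩ := polar_min hm (iso_rho g) (det_rho g)
  obtain ⟨p, hp⟩ := pw_mem ho hx hi (-1)
  -- `k = g p`
  have h1 : (rho c (g * p)).1 = (rho c g).1 * pw o x (-1) := by
    rw [map_mul, ← hp]; rfl
  have h2 : (rho c (g * p)⁻¹).1 = ((rho c g).1 * pw o x (-1))ᵀ := by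
    have h3 : (rho c (g * p)⁻¹).1 * (rho c (g * p)).1 = 1 := by
      have : (rho c (g * p)⁻¹) * (rho c (g * p)) = 1 := by rw [← map_mul, inv_mul_cancel, map_one]
      exact congrArg Subtype.val this
    rw [h1] at h3
    calc (rho c (g * p)⁻¹).1 = (rho c (g * p)⁻¹).1 * (((rho c g).1 * pw o x (-1)) *
          ((rho c g).1 * pw o x (-1))ᵀ) := by rw [hk, mul_one]
      _ = _ := by rw [← mul_assoc, h3, one_mul]
  obtain ⟨p', hp'⟩ := pw_mem ho hx hi 1
  refine ⟨p' * (g * p)⁻¹, ?_⟩
  have h3 : (rho c (p' * (g * p)⁻¹)).1 = (rho c p').1 * (rho c (g * p)⁻¹).1 := by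
    rw [map_mul]; rfl
  rw [h3, h2, hp', transpose_mul, pw_transpose, ← mul_assoc, pw_mul ho]
  norm_num
  rw [pw_zero ho, one_mul]

/-- square roots of positive definite elements -/
theorem sqrt_min (hm : Min c) (h : SLn n) (hP : h.1.PosDef) (hg : ∃ g, rho c g = h * h) :
    ∃ g, rho c g = h := by
  obtain ⟨g, hg⟩ := hg
  obtain ⟨o, x', ho, hx'⟩ := exists_pw hP
  have h0 : ∑ i, x' i = 0 := by
    have h1 : h.1.det = 1 := h.2
    rw [hx', det_pw ho, one_mul, Real.exp_eq_one_iff] at h1
    exact h1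
  set x : Fin n → ℝ := fun i => 2 * x' i with hx
  have hsum : ∑ i, x i = 0 := by rw [hx, ← Finset.mul_sum, h0, mul_zero]
  have e1 : h.1 * h.1 = o * diagonal (fun i => Real.exp (x i)) * oᵀ := by
    rw [hx', pw_mul ho, pw]
    congr 3
    funext i
    congr 1
    rw [hx]
    ring
  have h2 : Iso (o * diagonal (fun i => Real.exp (x i)) * oᵀ) c c := by
    have h3 := iso_rho g
    rw [hg] at h3
    rw [← e1]
    exact h3
  have h4 : ∀ s, Iso (pw o x s) c c := symB c c o x hm ho hsum h2 rfl
  obtain ⟨p, hp⟩ := pw_mem ho hsum h4 (1 / 2)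
  refine ⟨p, Subtype.ext ?_⟩
  rw [hp, hx', pw, pw]
  congr 3
  funext i
  congr 1
  rw [hx]
  ring

end Vale.Agent.P092.H259.Ad
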