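import Vale.Agent.P092.H259.Ad.Group
import Vale.Agent.P092.H793.Re.L3
import Mathlib.Analysis.Calculus.Deriv.Prod

/-!
P092, project RE-ADJ (helper259), [AD-5], part 2: the Lie algebra of the group of automorphisms of a
bracket; self-adjoint realisation of the group of a minimal simple bracket.
-/

set_option linter.all false

open Matrix Filter Topology

namespace Vale.Agent.P092.H259.Ad

open Vale.Agent.P092.H793.Re (Mat SLn RS Lie)

variable {n : ℕ} (c : Ten n)

/-- derivations -/
def Der (X : Mat n) : Prop := ∀ x y, X *ᵥ br c x y = br c (X *ᵥ x) y + br c x (X *ᵥ y)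

/-- simple brackets -/
structure Simp : Prop where
  lie : IsLie c
  nd : Nd c
  na : ∃ x y, br c x y ≠ 0
  ideal : ∀ I : Submodule ℝ (Fin n → ℝ), (∀ x ∈ I, ∀ y, br c y x ∈ I) → I = ⊥ ∨ I = ⊤
  inner : ∀ X : Mat n, Der c X → ∃ x, X = adm c x

section adm

theorem adm_mulVec (x y : Fin n → ℝ) : adm c x *ᵥ y = br c x y := by
  funext l
  simp only [mulVec, dotProduct, adm, of_apply, br, Finset.sum_mul]
  rw [Finset.sum_comm]

theorem adm_add (x y : Fin n → ℝ) : adm c (x + y) = adm c x + adm c y := by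
  ext l j
  simp only [adm, of_apply, Matrix.add_apply, Pi.add_apply, mul_add, Finset.sum_add_distrib]

theorem adm_smul (a : ℝ) (x : Fin n → ℝ) : adm c (a • x) = a • adm c x := by
  ext l j
  simp only [adm, of_apply, Matrix.smul_apply, Pi.smul_apply, smul_eq_mul, Finset.mul_sum]
  exact Finset.sum_congr rfl fun i _ => by ring

/-- `ad` as a linear map -/
def admL : (Fin n → ℝ) →ₗ[ℝ] Mat n where
  toFun := adm c
  map_add' := adm_add c
  map_smul' := adm_smul c

theorem adm_zero : adm c 0 = 0 := (admL c).map_zero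

variable {c}

theorem ext_mulVec {A B : Mat n} (h : ∀ y, A *ᵥ y = B *ᵥ y) : A = B :=
  Matrix.ext_of_mulVec_single fun i => h _

theorem adm_br (h : IsLie c) (x y : Fin n → ℝ) :
    adm c (br c x y) = adm c x * adm c y - adm c y * adm c x := by
  refine ext_mulVec fun z => ?_
  rw [adm_mulVec, sub_mulVec, ← mulVec_mulVec, ← mulVec_mulVec, adm_mulVec, adm_mulVec, adm_mulVec,
    adm_mulVec, h.jac x y z]
  abel

theorem adm_conj {c' : Ten n} {g g' : Mat n} (hi : Iso g c c') (h : g * g' = 1) (x : Fin n → ℝ) :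
    adm c' (g *ᵥ x) = g * adm c x * g' := by
  refine ext_mulVec fun z => ?_
  have e : z = g *ᵥ (g' *ᵥ z) := by rw [mulVec_mulVec, h, one_mulVec]
  rw [← mulVec_mulVec, ← mulVec_mulVec, adm_mulVec, adm_mulVec, hi]
  rw [← e]

theorem der_adm (h : IsLie c) (x : Fin n → ℝ) : Der c (adm c x) := by
  intro y z
  rw [adm_mulVec, adm_mulVec, adm_mulVec]
  exact h.jac x y z

/-- the Killing form as a bilinear form -/
theorem kil_dot (x y : Fin n → ℝ) : x ⬝ᵥ (kil c *ᵥ y) = (adm c x * adm c y).trace := by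
  have h1 : ∀ x : Fin n → ℝ, adm c x = ∑ i, x i • adm c (Pi.single i 1) := by
    intro x
    have e : x = ∑ i, x i • (Pi.single i (1 : ℝ) : Fin n → ℝ) := by
      funext j
      simp [Finset.sum_apply, Pi.single_apply]
    conv_lhs => rw [e]
    show admL c _ = _
    rw [map_sum]
    exact Finset.sum_congr rfl fun i _ => by rw [map_smul]; rfl
  rw [h1 x, h1 y, Finset.sum_mul, Matrix.trace_sum]
  simp only [dotProduct, mulVec, kil, of_apply, Finset.mul_sum, Matrix.trace_sum,
    Matrix.smul_mul, Matrix.mul_smul, Matrix.trace_smul, smul_eq_mul]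
  refine Finset.sum_congr rfl fun i _ => Finset.sum_congr rfl fun j _ => by ring

theorem kil_iso {c' : Ten n} {g g' : Mat n} (hi : Iso g c c') (h : g * g' = 1) :
    kil c = gᵀ * kil c' * g := by
  have h' : g' * g = 1 := mul_eq_one_comm.1 h
  have key : ∀ x y, x ⬝ᵥ (kil c *ᵥ y) = x ⬝ᵥ ((gᵀ * kil c' * g) *ᵥ y) := by
    intro x y
    have e0 : ∀ v, x ⬝ᵥ (gᵀ *ᵥ v) = (g *ᵥ x) ⬝ᵥ v := fun v => by
      rw [dotProduct_mulVec, vecMul_transpose]
    rw [← mulVec_mulVec, ← mulVec_mulVec, e0, kil_dot, kil_dot,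
      adm_conj hi h, adm_conj hi h]
    have e : g * adm c x * g' * (g * adm c y * g') = g * (adm c x * (g' * g) * adm c y) * g' := by
      simp only [mul_assoc]
    have e2 : (g * (adm c x * adm c y) * g').trace = (adm c x * adm c y).trace := by
      rw [Matrix.trace_mul_comm (g * _) g', ← mul_assoc, h', one_mul]
    rw [e, h', mul_one, e2]
  ext i j
  have := key (Pi.single i 1) (Pi.single j 1)
  simpa using this

theorem det_kil {c' : Ten n} {g g' : Mat n} (hi : Iso g c c') (h : g * g' = 1) :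
    (kil c).det = g.det ^ 2 * (kil c').det := by
  rw [kil_iso hi h, det_mul, det_mul, det_transpose]
  ring

theorem Nd.iso {c' : Ten n} {g g' : Mat n} (hn : Nd c) (hi : Iso g c c') (h : g * g' = 1) :
    Nd c' := by
  intro h0
  apply hn
  rw [det_kil hi h, h0, mul_zero]

theorem det_sq {g g' : Mat n} (hn : Nd c) (hi : Iso g c c) (h : g * g' = 1) : g.det ^ 2 = 1 := by
  have h1 := det_kil hi h
  have h2 : (g.det ^ 2 - 1) * (kil c).det = 0 := by linear_combination -h1
  rcases mul_eq_zero.1 h2 with h3 | h3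
  · linarith
  · exact absurd h3 hn

theorem eq_zero_of_kil (hn : Nd c) {x : Fin n → ℝ} (h : adm c x = 0) : x = 0 := by
  have h1 : ∀ y, y ⬝ᵥ (kil c *ᵥ x) = 0 := by
    intro y
    rw [kil_dot, h, mul_zero, Matrix.trace_zero]
  have h2 : kil c *ᵥ x = 0 := by
    funext i
    have := h1 (Pi.single i 1)
    rwa [single_dotProduct, one_mul] at this
  exact Matrix.eq_zero_of_mulVec_eq_zero hn h2

end adm

section deriv

attribute [local instance] Matrix.linftyOpNormedRing Matrix.linftyOpNormedAlgebra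

variable {c}

theorem hasDerivAt_entry {M : ℝ → Mat n} {M' : Mat n} {t : ℝ} (h : HasDerivAt M M' t)
    (i j : Fin n) : HasDerivAt (fun s => M s i j) (M' i j) t :=
  (Matrix.entryLinearMap ℝ ℝ i j).toContinuousLinearMap.hasFDerivAt.comp_hasDerivAt t h

theorem hasDerivAt_mulVec {M : ℝ → Mat n} {M' : Mat n} {v : ℝ → Fin n → ℝ} {v' : Fin n → ℝ}
    {t : ℝ} (h : HasDerivAt M M' t) (hv : HasDerivAt v v' t) :
    HasDerivAt (fun s => M s *ᵥ v s) (M' *ᵥ v t + M t *ᵥ v') t := by
  rw [hasDerivAt_pi]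
  intro i
  have h1 : HasDerivAt (fun s => ∑ j, M s i j * v s j) (∑ j, (M' i j * v t j + M t i j * v' j)) t :=
    HasDerivAt.fun_sum fun j _ => (hasDerivAt_entry h i j).mul ((hasDerivAt_pi.1 hv) j)
  refine h1.congr_deriv ?_
  rw [Finset.sum_add_distrib]
  rfl

theorem hasDerivAt_br {u v : ℝ → Fin n → ℝ} {u' v' : Fin n → ℝ} {t : ℝ} (hu : HasDerivAt u u' t)
    (hv : HasDerivAt v v' t) :
    HasDerivAt (fun s => br c (u s) (v s)) (br c u' (v t) + br c (u t) v') t := by
  rw [hasDerivAt_pi]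
  intro l
  have h1 : HasDerivAt (fun s => ∑ i, ∑ j, c i j l * u s i * v s j)
      (∑ i, ∑ j, (c i j l * u' i * v t j + c i j l * u t i * v' j)) t :=
    HasDerivAt.fun_sum fun i _ => HasDerivAt.fun_sum fun j _ =>
      (((hasDerivAt_pi.1 hu) i).const_mul (c i j l)).mul ((hasDerivAt_pi.1 hv) j)
  refine h1.congr_deriv ?_
  simp only [Finset.sum_add_distrib]
  rfl

theorem hasDerivAt_expm (X : Mat n) (t : ℝ) : HasDerivAt (fun s : ℝ => NormedSpace.exp (s • X))
    (X * NormedSpace.exp (t • X)) t := hasDerivAt_exp_smul_const' X t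

theorem hasDerivAt_expv (X : Mat n) (v : Fin n → ℝ) (t : ℝ) :
    HasDerivAt (fun s : ℝ => NormedSpace.exp (s • X) *ᵥ v)
      (X *ᵥ (NormedSpace.exp (t • X) *ᵥ v)) t := by
  have h1 := hasDerivAt_mulVec (hasDerivAt_expm X t) (hasDerivAt_const t v)
  rw [mulVec_zero, add_zero, ← mulVec_mulVec] at h1
  exact h1

theorem exp_neg_mul (X : Mat n) (s : ℝ) :
    NormedSpace.exp (s • (-X)) * NormedSpace.exp (s • X) = 1 := by
  rw [smul_neg, Matrix.exp_neg]
  exact Matrix.nonsing_inv_mul _ ((Matrix.isUnit_iff_isUnit_det _).1 (Matrix.isUnit_exp _))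

theorem iso_exp {X : Mat n} (h : Der c X) (s : ℝ) : Iso (NormedSpace.exp (s • X)) c c := by
  intro x y
  have hd : ∀ t : ℝ, HasDerivAt (fun t : ℝ => NormedSpace.exp (t • (-X)) *ᵥ
      br c (NormedSpace.exp (t • X) *ᵥ x) (NormedSpace.exp (t • X) *ᵥ y)) 0 t := by
    intro t
    have h1 := hasDerivAt_mulVec (hasDerivAt_expm (-X) t)
      (hasDerivAt_br (c := c) (hasDerivAt_expv X x t) (hasDerivAt_expv X y t))
    rw [← h] at h1
    refine h1.congr_deriv ?_
    have hc : Commute (-X) (NormedSpace.exp (t • (-X))) :=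
      (Commute.refl (-X)).smul_right t |>.exp_right
    rw [hc.eq, mul_neg, neg_mulVec, ← mulVec_mulVec]
    abel
  have h1 := is_const_of_deriv_eq_zero (fun t => (hd t).differentiableAt)
    (fun t => (hd t).deriv) s 0
  simp only [zero_smul, NormedSpace.exp_zero, one_mulVec] at h1
  have h2 : NormedSpace.exp (s • X) * NormedSpace.exp (s • (-X)) = 1 :=
    mul_eq_one_comm.1 (exp_neg_mul X s)
  rw [← h1, mulVec_mulVec, h2, one_mulVec]

theorem der_of_lie {X : Mat n} (h : Lie (rho c) X) : Der c X := by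
  intro x y
  have hi : ∀ t : ℝ, Iso (NormedSpace.exp (t • X)) c c := fun t => by
    obtain ⟨g, hg⟩ := h t
    rw [← hg]; exact iso_rho g
  have h1 := hasDerivAt_expv X (br c x y) 0
  have h2 := hasDerivAt_br (c := c) (hasDerivAt_expv X x 0) (hasDerivAt_expv X y 0)
  have h3 : (fun s : ℝ => NormedSpace.exp (s • X) *ᵥ br c x y) = fun s : ℝ =>
      br c (NormedSpace.exp (s • X) *ᵥ x) (NormedSpace.exp (s • X) *ᵥ y) :=
    funext fun s => hi s x y
  rw [h3] at h1
  have h4 := h1.unique h2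
  simpa only [zero_smul, NormedSpace.exp_zero, one_mulVec] using h4

theorem lie_of_der (hn : Nd c) {X : Mat n} (h : Der c X) : Lie (rho c) X := by
  intro t
  have hinv : ∀ s : ℝ, NormedSpace.exp (s • X) * NormedSpace.exp (s • (-X)) = 1 := fun s =>
    mul_eq_one_comm.1 (exp_neg_mul X s)
  have hdet : ∀ s : ℝ, (NormedSpace.exp (s • X)).det = 1 := by
    intro s
    have h1 : NormedSpace.exp (s • X) = NormedSpace.exp ((s / 2) • X) *
        NormedSpace.exp ((s / 2) • X) := by
      rw [← Matrix.exp_add_of_commute _ _ (Commute.refl _), ← add_smul, add_halves]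
    rw [h1, det_mul, ← sq]
    exact det_sq hn (iso_exp h (s / 2)) (hinv (s / 2))
  refine mem_aut0 (γ := fun s : ℝ => NormedSpace.exp (s • X)) ?_ (by simp) hdet
    (fun s => iso_exp h s) t
  exact H793.Re.continuous_exp.comp (by fun_prop)

theorem lie_iff (hn : Nd c) {X : Mat n} : Lie (rho c) X ↔ Der c X :=
  ⟨der_of_lie, lie_of_der hn⟩

theorem mem_of_hasDerivAt {S : Submodule ℝ (Mat n)} {f : ℝ → Mat n} {f' : Mat n}
    (h : HasDerivAt f f' 0) (hf : ∀ t, f t ∈ S) : f' ∈ S := by
  have hc : IsClosed (S : Set (Mat n)) := S.closed_of_finiteDimensional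
  have h := hasDerivAt_iff_tendsto_slope.1 h
  refine hc.mem_of_tendsto h (Eventually.of_forall fun t => ?_)
  rw [slope_def_module]
  exact S.smul_mem _ (S.sub_mem (hf _) (hf _))

/-- the adjoint representation preserves ideals only -/
theorem simple_lie (hs : Simp c) (S : Submodule ℝ (Mat n)) (hS : ∀ X ∈ S, Lie (rho c) X)
    (hA : ∀ g, ∀ X ∈ S, (rho c g).1 * X * (rho c g⁻¹).1 ∈ S) :
    S = ⊥ ∨ ∀ X, Lie (rho c) X → X ∈ S := by
  have hin : ∀ X, Lie (rho c) X → ∃ x, X = adm c x := fun X hX => hs.inner X (der_of_lie hX)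
  have hid : ∀ x ∈ S.comap (admL c), ∀ y, br c y x ∈ S.comap (admL c) := by
    intro x hx y
    show adm c (br c y x) ∈ S
    have hx' : adm c x ∈ S := hx
    rw [adm_br hs.lie]
    have h1 : ∀ t : ℝ, NormedSpace.exp (t • adm c y) * adm c x * NormedSpace.exp (t • (-adm c y)) ∈
        S := by
      intro t
      obtain ⟨g, hg⟩ := lie_of_der hs.nd (der_adm hs.lie y) t
      have h2 : (rho c g⁻¹).1 = NormedSpace.exp (t • (-adm c y)) := by
        have h3 : (rho c g⁻¹).1 * (rho c g).1 = 1 := H793.Re.coe_inv_mul g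
        have h4 : NormedSpace.exp (t • adm c y) * NormedSpace.exp (t • (-adm c y)) = 1 :=
          mul_eq_one_comm.1 (exp_neg_mul _ t)
        rw [hg] at h3
        calc (rho c g⁻¹).1 = (rho c g⁻¹).1 * (NormedSpace.exp (t • adm c y) *
              NormedSpace.exp (t • (-adm c y))) := by rw [h4, mul_one]
          _ = _ := by rw [← mul_assoc, h3, one_mul]
      rw [← hg, ← h2]
      exact hA g _ hx'
    have h5 := ((hasDerivAt_expm (adm c y) 0).mul_const (adm c x)).mul
      (hasDerivAt_expm (-adm c y) 0)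
    have h6 := mem_of_hasDerivAt h5 h1
    simp only [zero_smul, NormedSpace.exp_zero, mul_one, one_mul] at h6
    have e : adm c y * adm c x - adm c x * adm c y = adm c y * adm c x + adm c x * (-adm c y) := by
      rw [mul_neg, sub_eq_add_neg]
    rw [e]
    exact h6
  rcases hs.ideal (S.comap (admL c)) hid with h | h
  · left
    rw [eq_bot_iff]
    intro X hX
    obtain ⟨x, rfl⟩ := hin X (hS X hX)
    have hx : x ∈ S.comap (admL c) := hX
    rw [h, Submodule.mem_bot] at hx
    rw [hx, adm_zero]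
    exact Submodule.zero_mem _
  · right
    intro X hX
    obtain ⟨x, rfl⟩ := hin X hX
    have hx : x ∈ S.comap (admL c) := by rw [h]; trivial
    exact hx

theorem nab_aut0 (hs : Simp c) : ∃ g h : Aut0 c, g * h ≠ h * g := by
  by_contra hcon
  push Not at hcon
  obtain ⟨x, y, hxy⟩ := hs.na
  apply hxy
  apply eq_zero_of_kil hs.nd
  rw [adm_br hs.lie, sub_eq_zero]
  refine H793.Re.comm_of_exp fun t => ?_
  refine (H793.Re.comm_of_exp fun s => ?_).symm
  obtain ⟨g, hg⟩ := lie_of_der hs.nd (der_adm hs.lie x) t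
  obtain ⟨k, hk⟩ := lie_of_der hs.nd (der_adm hs.lie y) s
  rw [← hg, ← hk]
  have h1 := congrArg (fun z => (rho c z).1) (hcon k g)
  simp only [map_mul, Matrix.SpecialLinearGroup.coe_mul] at h1
  exact h1

/-- **[AD-5]**: the identity component of the group of automorphisms of a minimal simple bracket. -/
theorem rs_min (hB : SimB) (hs : Simp c) (hm : Min c) (hnc : ¬ CompactSpace (Aut0 c)) :
    RS (rho c) where
  emb := isClosedEmbedding_rho c
  conn := preconnected_aut0 c
  adj := adj_min hm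
  sqrt := sqrt_min hm
  nc := hnc
  nab := nab_aut0 hs
  simple := hB (rho c) (isClosedEmbedding_rho c) (preconnected_aut0 c) (simple_lie hs)

end deriv

end Vale.Agent.P092.H259.Ad
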