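import Vale.Agent.P092.H259.Ad.LieA
import Mathlib.Algebra.Lie.Derivation.Killing
import Mathlib.Algebra.Lie.CartanCriterion

/-!
P092, project RE-ADJ (helper259), [AD-7], part 1: the structure constants of a simple Lie algebra.
-/

set_option linter.all false

open Matrix Filter Topology

namespace Vale.Agent.P092.H259.Ad

open Vale.Agent.P092.H793.Re (Mat SLn RS Lie)

variable {n : ℕ} {L : Type} [LieRing L] [LieAlgebra ℝ L] {c : Ten n}

/-- `φ` identifies the Lie algebra `L` with the bracket `c` -/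
def Mod (φ : L ≃ₗ[ℝ] (Fin n → ℝ)) (c : Ten n) : Prop := ∀ x y, φ ⁅x, y⁆ = br c (φ x) (φ y)

variable {φ : L ≃ₗ[ℝ] (Fin n → ℝ)}

theorem Mod.br_eq (h : Mod φ c) (x y : Fin n → ℝ) : br c x y = φ ⁅φ.symm x, φ.symm y⁆ := by
  rw [h, φ.apply_symm_apply, φ.apply_symm_apply]

theorem Mod.isLie (h : Mod φ c) : IsLie c where
  anti x y := by rw [h.br_eq, h.br_eq, ← map_neg, lie_skew]
  jac x y z := by
    simp only [h.br_eq, φ.symm_apply_apply]
    rw [← map_add, leibniz_lie]

theorem Mod.adm_eq (h : Mod φ c) (x : L) :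
    Matrix.toLin' (adm c (φ x)) = φ.conj (LieAlgebra.ad ℝ L x) := by
  refine LinearMap.ext fun v => ?_
  rw [Matrix.toLin'_apply, adm_mulVec, LinearEquiv.conj_apply_apply, h.br_eq, φ.symm_apply_apply]
  rfl

theorem Mod.kil_eq (h : Mod φ c) (x y : L) :
    φ x ⬝ᵥ (kil c *ᵥ φ y) = killingForm ℝ L x y := by
  rw [kil_dot, ← Matrix.trace_toLin'_eq, Matrix.toLin'_mul, h.adm_eq, h.adm_eq,
    ← LinearEquiv.conj_comp, LinearMap.trace_conj', killingForm_apply_apply]

variable [FiniteDimensional ℝ L]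

theorem Mod.nd [LieAlgebra.IsKilling ℝ L] (h : Mod φ c) : Nd c := by
  intro h0
  obtain ⟨v, hv, hv0⟩ := Matrix.exists_mulVec_eq_zero_iff.2 h0
  apply hv
  have h1 : φ.symm v ∈ LinearMap.ker (killingForm ℝ L) := by
    rw [LinearMap.mem_ker]
    refine LinearMap.ext fun y => ?_
    rw [LieModule.traceForm_comm, ← h.kil_eq, φ.apply_symm_apply, hv0, dotProduct_zero]
    rfl
  rw [LieAlgebra.IsKilling.ker_killingForm_eq_bot, Submodule.mem_bot] at h1
  rw [← φ.apply_symm_apply v, h1, map_zero]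

theorem Mod.inner [LieAlgebra.IsKilling ℝ L] (h : Mod φ c) (X : Mat n) (hX : Der c X) :
    ∃ x, X = adm c x := by
  let D : LieDerivation ℝ L L :=
    { toLinearMap := φ.symm.toLinearMap ∘ₗ Matrix.toLin' X ∘ₗ φ.toLinearMap
      leibniz' := fun a b => by
        show φ.symm (X *ᵥ φ ⁅a, b⁆) = ⁅a, φ.symm (X *ᵥ φ b)⁆ - ⁅b, φ.symm (X *ᵥ φ a)⁆
        apply φ.injective
        rw [φ.apply_symm_apply, map_sub, h a, h a, h b, hX, φ.apply_symm_apply,
          φ.apply_symm_apply, h.isLie.anti (φ b) (X *ᵥ φ a)]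
        abel }
  obtain ⟨x, hx⟩ := LieDerivation.IsKilling.exists_eq_ad D
  refine ⟨φ x, ext_mulVec fun y => ?_⟩
  have h1 : (LieDerivation.ad ℝ L x) (φ.symm y) = D (φ.symm y) := by rw [hx]
  have h2 : D (φ.symm y) = φ.symm (X *ᵥ φ (φ.symm y)) := rfl
  rw [h2, LieDerivation.ad_apply_apply, φ.apply_symm_apply] at h1
  rw [adm_mulVec, h.br_eq, φ.symm_apply_apply, h1, φ.apply_symm_apply]

/-- The structure constants of a simple Lie algebra. -/
theorem Mod.simp [LieAlgebra.IsSimple ℝ L] (h : Mod φ c) : Simp c := by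
  haveI : LieAlgebra.IsKilling ℝ L := inferInstance
  exact
  { lie := h.isLie
    nd := h.nd
    na := by
      by_contra hcon
      push Not at hcon
      apply LieAlgebra.IsSimple.non_abelian (R := ℝ) (L := L)
      refine ⟨fun x y => ?_⟩
      apply φ.injective
      rw [h, hcon, map_zero]
    ideal := fun I hI => by
      let J : LieIdeal ℝ L :=
        { I.comap φ.toLinearMap with
          lie_mem := fun {x m} hm => by
            show φ ⁅x, m⁆ ∈ I
            rw [h]
            exact hI _ hm _ }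
      have hJ : ∀ x, x ∈ J ↔ φ x ∈ I := fun x => Iff.rfl
      rcases LieAlgebra.IsSimple.eq_bot_or_eq_top (R := ℝ) J with h1 | h1
      · left
        rw [eq_bot_iff]
        intro v hv
        have h2 : φ.symm v ∈ J := by rw [hJ, φ.apply_symm_apply]; exact hv
        rw [h1, LieSubmodule.mem_bot] at h2
        rw [Submodule.mem_bot, ← φ.apply_symm_apply v, h2, map_zero]
      · right
        rw [eq_top_iff]
        intro v _
        have h2 : φ.symm v ∈ J := by rw [h1]; exact LieSubmodule.mem_top _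
        rwa [hJ, φ.apply_symm_apply] at h2
    inner := h.inner }

omit [FiniteDimensional ℝ L] in
/-- transport to an isomorphic bracket -/
theorem Mod.iso {c' : Ten n} (h : Mod φ c) {g g' : Mat n} (hi : Iso g c c') (h1 : g * g' = 1)
    (h2 : g' * g = 1) : ∃ φ' : L ≃ₗ[ℝ] (Fin n → ℝ), Mod φ' c' ∧ ∀ x, φ' x = g *ᵥ φ x := by
  let e : (Fin n → ℝ) ≃ₗ[ℝ] (Fin n → ℝ) := Matrix.toLin'OfInv h2 h1
  have he : ∀ v, e v = g *ᵥ v := fun v => Matrix.toLin'_apply g v
  refine ⟨φ.trans e, fun x y => ?_, fun x => rfl⟩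
  show e (φ ⁅x, y⁆) = br c' (e (φ x)) (e (φ y))
  rw [he, he, he, h, hi]

omit [FiniteDimensional ℝ L] in
/-- the structure constants in a basis -/
theorem mod_basis (b : Module.Basis (Fin n) ℝ L) :
    Mod b.equivFun (fun i j l => b.equivFun ⁅b i, b j⁆ l) := by
  intro x y
  funext l
  have hx : x = ∑ i, b.equivFun x i • b i := (b.sum_equivFun x).symm
  have hy : y = ∑ i, b.equivFun y i • b i := (b.sum_equivFun y).symm
  conv_lhs => rw [hx, hy]
  simp only [LieModule.toEnd_apply_apply, sum_lie, lie_sum, smul_lie, lie_smul, map_sum, map_smul,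
    Finset.sum_apply, Pi.smul_apply, smul_eq_mul]
  rw [br, Finset.sum_comm]
  refine Finset.sum_congr rfl fun i _ => ?_
  rw [Finset.mul_sum]
  refine Finset.sum_congr rfl fun j _ => ?_
  ring

omit [FiniteDimensional ℝ L] in
/-- the automorphisms in a basis -/
theorem mem_aut_iff (b : Module.Basis (Fin n) ℝ L) (hm : Mod b.equivFun c) (g : SLn n) :
    g ∈ aut c ↔ ∃ f : L ≃ₗ⁅ℝ⁆ L, LinearMap.toMatrix b b (f : L →ₗ[ℝ] L) = g.1 := by
  constructor
  · intro hg
    have hg' : Iso g.1 c c := hg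
    have h1 : g.1 * (g⁻¹).1 = 1 := congrArg Subtype.val (mul_inv_cancel g)
    have h2 : (g⁻¹).1 * g.1 = 1 := congrArg Subtype.val (inv_mul_cancel g)
    let e : L ≃ₗ[ℝ] L := (b.equivFun.trans (Matrix.toLin'OfInv h2 h1)).trans b.equivFun.symm
    have he : ∀ x, b.equivFun (e x) = g.1 *ᵥ b.equivFun x := fun x => by
      show b.equivFun (b.equivFun.symm _) = _
      rw [LinearEquiv.apply_symm_apply]
      exact Matrix.toLin'_apply g.1 _
    let f : L ≃ₗ⁅ℝ⁆ L :=
      { e with
        map_lie' := fun {x y} => by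
          show e ⁅x, y⁆ = ⁅e x, e y⁆
          apply b.equivFun.injective
          rw [he, hm, hm, he, he, hg'] }
    refine ⟨f, ?_⟩
    refine ext_mulVec fun v => ?_
    have h3 : v = b.repr (b.equivFun.symm v) := by
      show v = b.equivFun (b.equivFun.symm v)
      rw [LinearEquiv.apply_symm_apply]
    conv_lhs => rw [h3, LinearMap.toMatrix_mulVec_repr]
    show b.equivFun (e (b.equivFun.symm v)) = _
    rw [he, LinearEquiv.apply_symm_apply]
  · rintro ⟨f, hf⟩
    have h1 : ∀ x, g.1 *ᵥ b.equivFun x = b.equivFun (f x) := fun x => by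
      rw [← hf]
      exact LinearMap.toMatrix_mulVec_repr b b (f : L →ₗ[ℝ] L) x
    intro x y
    have h2 : ∀ v, v = b.equivFun (b.equivFun.symm v) := fun v => by
      rw [LinearEquiv.apply_symm_apply]
    rw [h2 x, h2 y, ← hm, h1, h1, h1, f.map_lie, hm]

end Vale.Agent.P092.H259.Ad
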