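import Vale.Agent.P092.H259.Ad.Final
import Vale.Agent.P092.H259.Re.Real

/-!
P092, project RE-ADJ (helper259): every noncompact connected simple real Lie group with trivial centre
is in the class `QF`.
-/

set_option linter.all false

namespace Vale.Agent.P092.H259.Ad

/-- **Every noncompact connected simple real Lie group with trivial centre is in the class `QF`.** -/
theorem isAdj_qf {G : Type} [Group G] [TopologicalSpace G] (h : IsAdj G) : ∃ r, QC.QF G r := by
  obtain ⟨n, ρ, hρ⟩ := adjB h
  exact H259.Re.qf_real hρ

end Vale.Agent.P092.H259.Ad
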